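import Mathlib

/-!
# Equations over groups: basic definitions (problem P174)
-/

namespace Vale.Agent.Lib.P174

universe u

/-- A finite system `w : Fin m → G * F_n` is solvable over `G` if there are a group `H`, an
injective homomorphism `G → H` and elements `h_j` of `H` at which every `w i` evaluates to `1`. -/
def SolvableOver {G : Type u} [Group G] {m n : ℕ}
    (w : Fin m → Monoid.Coprod G (FreeGroup (Fin n))) : Prop :=
  ∃ (H : Type u) (_ : Group H) (ι : G →* H) (h : Fin n → H), Function.Injective ι ∧
    ∀ i, Monoid.Coprod.lift ι (FreeGroup.lift h) (w i) = 1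

/-- The homomorphism `G * F_n → ℤ^n` killing `G` and sending `x_j` to `e_j`. -/
def expHom (G : Type u) [Group G] (n : ℕ) :
    Monoid.Coprod G (FreeGroup (Fin n)) →* Multiplicative (Fin n → ℤ) :=
  Monoid.Coprod.lift 1 (FreeGroup.lift fun j => Multiplicative.ofAdd (Pi.single j 1))

/-- The exponent-sum matrix of a system. -/
def expMatrix {G : Type u} [Group G] {m n : ℕ}
    (w : Fin m → Monoid.Coprod G (FreeGroup (Fin n))) : Matrix (Fin m) (Fin n) ℤ :=
  fun i j => Multiplicative.toAdd (expHom G n (w i)) j

/-- A system is nonsingular if its exponent-sum matrix has rank `m` over `ℚ`. -/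
def Nonsingular {G : Type u} [Group G] {m n : ℕ}
    (w : Fin m → Monoid.Coprod G (FreeGroup (Fin n))) : Prop :=
  ((expMatrix w).map (Int.cast : ℤ → ℚ)).rank = m

/-- Letters of a word over `G` in the unknowns `x_0, ..., x_{n-1}`: a coefficient from `G`,
an unknown, or the inverse of an unknown. -/
inductive Letter (G : Type u) (n : ℕ) : Type u
  | coef : G → Letter G n
  | var : Fin n → Letter G n
  | varInv : Fin n → Letter G n

/-- The element of `G * F_n` spelled by a letter. -/
def Letter.toCoprod {G : Type u} [Group G] {n : ℕ} :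
    Letter G n → Monoid.Coprod G (FreeGroup (Fin n))
  | Letter.coef g => Monoid.Coprod.inl g
  | Letter.var j => Monoid.Coprod.inr (FreeGroup.of j)
  | Letter.varInv j => Monoid.Coprod.inr (FreeGroup.of j)⁻¹

/-- The element of `G * F_n` spelled by a word (list of letters). -/
def wordVal {G : Type u} [Group G] {n : ℕ} (L : List (Letter G n)) :
    Monoid.Coprod G (FreeGroup (Fin n)) :=
  (L.map Letter.toCoprod).prod

end Vale.Agent.Lib.P174
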