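import Mathlib

/-!
# The wreath product trick for positive equations
-/

namespace Vale.Agent.Lib.P174

universe u

/-- Nested cancellation. -/
theorem sym_prod {G : Type u} [Group G] : ∀ (N : ℕ) (v : ℕ → G),
    ((List.range N).map (fun j => (v (N - 1 - j))⁻¹ * v j)).prod = 1 := by
  intro N
  induction N using Nat.strong_induction_on with
  | _ N ih =>
    intro v
    match N, ih with
    | 0, _ => simp
    | 1, _ => simp
    | (N + 2), ih =>
      have h1 := ih N (by omega) (fun x => v (x + 1))
      rw [List.range_succ, List.range_succ_eq_map]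
      simp only [List.map_append, List.map_cons, List.map_map, List.map_nil, List.prod_append,
        List.prod_cons, List.prod_nil]
      have h2 : (List.map ((fun j => (v (N + 2 - 1 - j))⁻¹ * v j) ∘ Nat.succ) (List.range N))
          = (List.map (fun j => (v (N - 1 - j + 1))⁻¹ * v (j + 1)) (List.range N)) := by
        apply List.map_congr_left
        intro j hj
        have hj' : j < N := List.mem_range.mp hj
        have : N + 2 - 1 - j.succ = N - 1 - j + 1 := by omega
        simp only [Function.comp, this]
      rw [h2, h1]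
      have e1 : N + 2 - 1 - 0 = N + 1 := by omega
      have e2 : N + 2 - 1 - (N + 1) = 0 := by omega
      rw [e1, e2]
      group


section construction

variable {G : Type u} [Group G] (k : ℕ)

/-- `G` acting on `ZMod k × G` by left multiplication on the second coordinate. -/
def diagHom : G →* Equiv.Perm (ZMod k × G) where
  toFun g :=
    { toFun := fun p => (p.1, g * p.2)
      invFun := fun p => (p.1, g⁻¹ * p.2)
      left_inv := fun p => by simp
      right_inv := fun p => by simp }
  map_one' := by ext p <;> simp
  map_mul' g h := by ext p <;> simp [mul_assoc]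

theorem diagHom_apply (g : G) (p : ZMod k × G) : diagHom k g p = (p.1, g * p.2) := rfl

theorem diagHom_injective : Function.Injective (diagHom (G := G) k) := by
  intro g h hgh
  have := congrArg (fun e : Equiv.Perm (ZMod k × G) => (e (0, 1)).2) hgh
  simpa [diagHom_apply] using this

/-- The twisted shift. -/
def shiftPerm (a : ZMod k → G) : Equiv.Perm (ZMod k × G) where
  toFun := fun p => (p.1 + 1, (a p.1)⁻¹ * p.2)
  invFun := fun p => (p.1 - 1, a (p.1 - 1) * p.2)
  left_inv := fun p => by simp
  right_inv := fun p => by simp

theorem shiftPerm_apply (a : ZMod k → G) (p : ZMod k × G) :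
    shiftPerm k a p = (p.1 + 1, (a p.1)⁻¹ * p.2) := rfl

theorem prod_apply (a : ZMod k → G) (b : ℕ → G) : ∀ (N : ℕ) (i : ZMod k) (y : G),
    ((List.range N).map (fun j => shiftPerm k a * diagHom k (b j))).prod (i, y)
      = (i + N, ((List.range N).map
          (fun j => (a (i + ((N - 1 - j : ℕ) : ZMod k)))⁻¹ * b j)).prod * y) := by
  intro N
  induction N with
  | zero => intro i y; simp
  | succ N ih =>
    intro i y
    rw [List.range_succ]
    simp only [List.map_append, List.map_cons, List.map_nil, List.prod_append, List.prod_cons,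
      List.prod_nil, mul_one, Equiv.Perm.mul_apply, diagHom_apply, shiftPerm_apply]
    rw [ih]
    have h2 : (List.map (fun j => (a (i + 1 + ((N - 1 - j : ℕ) : ZMod k)))⁻¹ * b j) (List.range N))
        = (List.map (fun j => (a (i + ((N + 1 - 1 - j : ℕ) : ZMod k)))⁻¹ * b j) (List.range N)) := by
      apply List.map_congr_left
      intro j hj
      have hj' : j < N := List.mem_range.mp hj
      have : N + 1 - 1 - j = (N - 1 - j) + 1 := by omega
      rw [this]
      push_cast
      rw [add_assoc, add_comm (1 : ZMod k)]
    rw [h2]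
    have e : N + 1 - 1 - N = 0 := by omega
    rw [e]
    simp only [Nat.cast_zero, add_zero, Nat.cast_add, Nat.cast_one, mul_assoc, Prod.mk.injEq,
      and_true]
    ring

theorem total_eq_one [NeZero k] (a : ZMod k → G) (i : ZMod k) :
    ((List.range k).map
      (fun j : ℕ => (a (i + ((k - 1 - j : ℕ) : ZMod k)))⁻¹ * a (j : ZMod k))).prod = 1 := by
  have hk : 0 < k := Nat.pos_of_ne_zero (NeZero.ne k)
  set c : ZMod k := i - 1 with hc
  have hcv : c.val < k := ZMod.val_lt c
  have hsplit : k = (c.val + 1) + (k - c.val - 1) := by omega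
  have key : ∀ j, j < k → (i + ((k - 1 - j : ℕ) : ZMod k)) = c - (j : ZMod k) := by
    intro j hj
    have h1 : k - 1 - j = k - (1 + j) := by omega
    rw [h1, Nat.cast_sub (by omega)]
    simp only [ZMod.natCast_self, Nat.cast_add, Nat.cast_one, hc]
    ring
  have h0 : (List.range k).map
      (fun j : ℕ => (a (i + ((k - 1 - j : ℕ) : ZMod k)))⁻¹ * a (j : ZMod k))
      = (List.range k).map (fun j : ℕ => (a (c - (j : ZMod k)))⁻¹ * a (j : ZMod k)) := by
    apply List.map_congr_left
    intro j hj
    rw [key j (List.mem_range.mp hj)]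
  rw [h0]
  have hr : List.range k = List.range ((c.val + 1) + (k - c.val - 1)) := congrArg List.range hsplit
  rw [hr, List.range_add, List.map_append, List.prod_append, List.map_map]
  have hA : (List.range (c.val + 1)).map (fun j : ℕ => (a (c - (j : ZMod k)))⁻¹ * a (j : ZMod k))
      = (List.range (c.val + 1)).map
        (fun j : ℕ => ((fun x : ℕ => a (x : ZMod k)) (c.val + 1 - 1 - j))⁻¹
          * (fun x : ℕ => a (x : ZMod k)) j) := by
    apply List.map_congr_left
    intro j hj
    have hj' : j < c.val + 1 := List.mem_range.mp hj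
    have h1 : c.val + 1 - 1 - j = c.val - j := by omega
    simp only [h1]
    rw [Nat.cast_sub (by omega), ZMod.natCast_zmod_val]
  have hB : (List.range (k - c.val - 1)).map
      ((fun j : ℕ => (a (c - (j : ZMod k)))⁻¹ * a (j : ZMod k)) ∘ fun x => c.val + 1 + x)
      = (List.range (k - c.val - 1)).map
        (fun j : ℕ => ((fun x : ℕ => a ((c.val + 1 + x : ℕ) : ZMod k)) (k - c.val - 1 - 1 - j))⁻¹
          * (fun x : ℕ => a ((c.val + 1 + x : ℕ) : ZMod k)) j) := by
    apply List.map_congr_left
    intro j hj
    have hj' : j < k - c.val - 1 := List.mem_range.mp hj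
    have h1 : c.val + 1 + (k - c.val - 1 - 1 - j) = k - (1 + j) := by omega
    simp only [Function.comp, h1]
    rw [Nat.cast_sub (by omega)]
    congr 3
    simp only [ZMod.natCast_self, Nat.cast_add, Nat.cast_one, ZMod.natCast_zmod_val]
    ring
  rw [hA, hB, sym_prod (c.val + 1) (fun x : ℕ => a (x : ZMod k)),
    sym_prod (k - c.val - 1) (fun x : ℕ => a ((c.val + 1 + x : ℕ) : ZMod k)), one_mul]

/-- The positive equation `t a_0 t a_1 ... t a_{k-1} = 1` has a solution in an overgroup. -/
theorem levin_fun [NeZero k] (a : ZMod k → G) :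
    ((List.range k).map (fun j : ℕ => shiftPerm k a * diagHom k (a (j : ZMod k)))).prod = 1 := by
  ext p
  · obtain ⟨i, y⟩ := p
    rw [prod_apply k a (fun j : ℕ => a (j : ZMod k)) k i y]
    simp
  · obtain ⟨i, y⟩ := p
    rw [prod_apply k a (fun j : ℕ => a (j : ZMod k)) k i y, total_eq_one]
    simp

end construction

end Vale.Agent.Lib.P174
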