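import Vale.Agent.Lib.P174.Defs

/-!
# Triangular systems are nonsingular
-/

namespace Vale.Agent.Lib.P174

universe u

/-- exponent of `x_j` in a letter -/
def letterExp {G : Type u} {n : ℕ} (j : Fin n) : Letter G n → ℤ
  | Letter.coef _ => 0
  | Letter.var i => if i = j then 1 else 0
  | Letter.varInv i => if i = j then -1 else 0

theorem exp_wordVal {G : Type u} [Group G] {n : ℕ} (L : List (Letter G n)) (j : Fin n) :
    Multiplicative.toAdd (expHom G n (wordVal L)) j = (L.map (letterExp j)).sum := by
  induction L with
  | nil => simp [wordVal]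
  | cons l L ih =>
    have : wordVal (l :: L) = l.toCoprod * wordVal L := by simp [wordVal]
    rw [this, map_mul, toAdd_mul, Pi.add_apply, ih, List.map_cons, List.sum_cons]
    congr 1
    cases l with
    | coef g => simp [Letter.toCoprod, expHom, letterExp]
    | var i => simp [Letter.toCoprod, expHom, letterExp, Pi.single_apply, eq_comm]
    | varInv i =>
      simp only [Letter.toCoprod, expHom, letterExp, Monoid.Coprod.lift_apply_inr, map_inv,
        FreeGroup.lift_apply_of, toAdd_inv, toAdd_ofAdd, Pi.neg_apply, Pi.single_apply, eq_comm]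
      split_ifs <;> simp

theorem exp_zero {G : Type u} [Group G] {n : ℕ} (L : List (Letter G n)) (j : Fin n)
    (h1 : Letter.var j ∉ L) (h2 : Letter.varInv j ∉ L) :
    Multiplicative.toAdd (expHom G n (wordVal L)) j = 0 := by
  rw [exp_wordVal]
  apply List.sum_eq_zero
  intro x hx
  rw [List.mem_map] at hx
  obtain ⟨l, hl, rfl⟩ := hx
  cases l with
  | coef g => rfl
  | var i =>
    have : i ≠ j := by rintro rfl; exact h1 hl
    simp [letterExp, this]
  | varInv i =>
    have : i ≠ j := by rintro rfl; exact h2 hl
    simp [letterExp, this]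

theorem exp_pos {G : Type u} [Group G] {n : ℕ} (L : List (Letter G n)) (j : Fin n)
    (h1 : Letter.var j ∈ L) (h2 : Letter.varInv j ∉ L) :
    0 < Multiplicative.toAdd (expHom G n (wordVal L)) j := by
  rw [exp_wordVal]
  have hnn : ∀ L' : List (Letter G n), Letter.varInv j ∉ L' → 0 ≤ (L'.map (letterExp j)).sum := by
    intro L' h
    apply List.sum_nonneg
    intro x hx
    rw [List.mem_map] at hx
    obtain ⟨l, hl, rfl⟩ := hx
    cases l with
    | coef g => simp [letterExp]
    | var i => simp only [letterExp]; split_ifs <;> simp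
    | varInv i =>
      have : i ≠ j := by rintro rfl; exact h hl
      simp [letterExp, this]
  obtain ⟨A, B, rfl⟩ := List.append_of_mem h1
  have hA : Letter.varInv j ∉ A := fun h => h2 (by simp [h])
  have hB : Letter.varInv j ∉ B := fun h => h2 (by simp [h])
  have := hnn A hA
  have := hnn B hB
  simp only [List.map_append, List.map_cons, List.sum_append, List.sum_cons, letterExp, if_true]
  omega

theorem triangular_nonsingular {G : Type u} [Group G] {m n : ℕ} (W : Fin m → List (Letter G n))
    (σ : Fin m → Fin n)
    (hpos : ∀ i, Letter.var (σ i) ∈ W i ∧ Letter.varInv (σ i) ∉ W i)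
    (htri : ∀ i k, k < i → Letter.var (σ i) ∉ W k ∧ Letter.varInv (σ i) ∉ W k) :
    Nonsingular (fun i => wordVal (W i)) := by
  unfold Nonsingular
  have hli : LinearIndependent ℚ
      ((expMatrix (fun i => wordVal (W i))).map (Int.cast : ℤ → ℚ)).row := by
    rw [Fintype.linearIndependent_iff]
    intro g hg
    by_contra hne
    push Not at hne
    let S : Finset (Fin m) := Finset.univ.filter (fun i => g i ≠ 0)
    have hS : S.Nonempty := by
      obtain ⟨i, hi⟩ := hne
      exact ⟨i, by simp [S, hi]⟩
    let i := S.max' hS
    have hi : g i ≠ 0 := by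
      have := S.max'_mem hS
      simpa [S] using this
    have hgt : ∀ k, i < k → g k = 0 := by
      intro k hk
      by_contra hk0
      have : k ∈ S := by simp [S, hk0]
      exact absurd (S.le_max' k this) (not_le.mpr hk)
    have h1 := congrFun hg (σ i)
    simp only [Finset.sum_apply, Pi.smul_apply, Matrix.row, Matrix.map_apply, smul_eq_mul,
      Pi.zero_apply] at h1
    rw [Finset.sum_eq_single i] at h1
    · have h2 : (0 : ℤ) < expMatrix (fun i => wordVal (W i)) i (σ i) :=
        exp_pos (W i) (σ i) (hpos i).1 (hpos i).2
      have h3 : ((expMatrix (fun i => wordVal (W i)) i (σ i) : ℤ) : ℚ) ≠ 0 := by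
        exact_mod_cast h2.ne'
      exact hi ((mul_eq_zero.mp h1).resolve_right h3)
    · intro k _ hk
      rcases lt_or_gt_of_ne hk with hlt | hgt'
      · have : expMatrix (fun i => wordVal (W i)) k (σ i) = 0 :=
          exp_zero (W k) (σ i) (htri i k hlt).1 (htri i k hlt).2
        rw [this]; simp
      · rw [hgt k hgt']; simp
    · intro h; exact absurd (Finset.mem_univ i) h
  rw [hli.rank_matrix, Fintype.card_fin]

end Vale.Agent.Lib.P174
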