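import Vale.Agent.Lib.P174.Defs
import Vale.Agent.Lib.P174.Levin

/-!
# Triangular systems with positive pivots are nonsingular and solvable over every group
-/

namespace Vale.Agent.Lib.P174

universe u

theorem levin_list {G : Type u} [Group G] (cs : List G) (hcs : cs ≠ []) :
    ∃ (H : Type u) (_ : Group H) (κ : G →* H) (t : H), Function.Injective κ ∧
      (cs.map (fun c => t * κ c)).prod = 1 := by
  have hk : cs.length ≠ 0 := by
    intro h
    exact hcs (List.length_eq_zero_iff.mp h)
  have : NeZero cs.length := ⟨hk⟩
  let a : ZMod cs.length → G := fun j => cs.getD j.val 1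
  have hl : cs = (List.range cs.length).map (fun j : ℕ => a (j : ZMod cs.length)) := by
    apply List.ext_getElem
    · simp
    · intro j h1 h2
      simp only [List.getElem_map, List.getElem_range, a]
      rw [ZMod.val_natCast_of_lt h1]
      simp [List.getD_eq_getElem?_getD, h1]
  refine ⟨Equiv.Perm (ZMod cs.length × G), inferInstance, diagHom cs.length,
    shiftPerm cs.length a, diagHom_injective _, ?_⟩
  have h3 := levin_fun cs.length a
  have h4 : cs.map (fun c => shiftPerm cs.length a * diagHom cs.length c)
      = ((List.range cs.length).map (fun j : ℕ => a (j : ZMod cs.length))).map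
        (fun c => shiftPerm cs.length a * diagHom cs.length c) := congrArg _ hl
  rw [h4, List.map_map]
  exact h3

/-- Evaluation of a letter that is either the unknown (`none`) or a coefficient. -/
def evalO {H H' : Type u} (κ : H → H') (t : H') : Option H → H'
  | none => t
  | some x => κ x

theorem blocks {H : Type u} [Group H] : ∀ O : List (Option H), ∃ (c : H) (cs : List H),
    ∀ (H' : Type u) [Group H'] (κ : H →* H') (t : H'),
      (O.map (evalO κ t)).prod = κ c * (cs.map (fun c => t * κ c)).prod := by
  intro O
  induction O with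
  | nil => exact ⟨1, [], fun H' _ κ t => by simp⟩
  | cons o O ih =>
    obtain ⟨c, cs, h⟩ := ih
    cases o with
    | none =>
      refine ⟨1, c :: cs, fun H' _ κ t => ?_⟩
      simp [evalO, h H' κ t, mul_assoc]
    | some x =>
      refine ⟨x * c, cs, fun H' _ κ t => ?_⟩
      simp [evalO, h H' κ t, mul_assoc]

theorem levin_option {H : Type u} [Group H] (O : List (Option H)) (hO : none ∈ O) :
    ∃ (H' : Type u) (_ : Group H') (κ : H →* H') (t : H'), Function.Injective κ ∧
      (O.map (evalO κ t)).prod = 1 := by
  obtain ⟨A, B, rfl⟩ := List.append_of_mem hO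
  obtain ⟨c, cs, h⟩ := blocks (B ++ A)
  obtain ⟨H', _, κ, t, hκ, ht⟩ := levin_list (c :: cs) (by simp)
  refine ⟨H', inferInstance, κ, t, hκ, ?_⟩
  have h1 := h H' κ t
  simp only [List.map_cons, List.prod_cons] at ht
  simp only [List.map_append, List.prod_append] at h1
  simp only [List.map_append, List.map_cons, List.prod_append, List.prod_cons, evalO]
  rw [mul_assoc, ← h1] at ht
  generalize (List.map (evalO (⇑κ) t) A).prod = x at ht ⊢
  generalize (List.map (evalO (⇑κ) t) B).prod = y at ht ⊢
  have h5 : t * y = x⁻¹ := by
    rw [← mul_assoc] at ht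
    exact eq_inv_of_mul_eq_one_left ht
  rw [h5, mul_inv_cancel]

/-- Evaluation of a letter in a group `H`. -/
def evalL {G H : Type u} [Group G] [Group H] {n : ℕ} (ι : G →* H) (h : Fin n → H) :
    Letter G n → H
  | Letter.coef g => ι g
  | Letter.var j => h j
  | Letter.varInv j => (h j)⁻¹

theorem lift_wordVal {G H : Type u} [Group G] [Group H] {n : ℕ} (ι : G →* H) (h : Fin n → H)
    (L : List (Letter G n)) :
    Monoid.Coprod.lift ι (FreeGroup.lift h) (wordVal L) = (L.map (evalL ι h)).prod := by
  induction L with
  | nil => simp [wordVal]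
  | cons l L ih =>
    have : wordVal (l :: L) = l.toCoprod * wordVal L := by simp [wordVal]
    rw [this, map_mul, ih]
    cases l <;> simp [Letter.toCoprod, evalL]

/-- Turn a letter into a letter of a one-variable equation over `H` in the unknown `x_j`. -/
def toOpt {G H : Type u} [Group G] [Group H] {n : ℕ} (ι : G →* H) (h : Fin n → H) (j : Fin n) :
    Letter G n → Option H
  | Letter.coef g => some (ι g)
  | Letter.var i => if i = j then none else some (h i)
  | Letter.varInv i => some (h i)⁻¹

theorem step {G H : Type u} [Group G] [Group H] {n : ℕ} (ι : G →* H) (h : Fin n → H) (j : Fin n)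
    (L : List (Letter G n)) (h1 : Letter.var j ∈ L) (h2 : Letter.varInv j ∉ L) :
    ∃ (H' : Type u) (_ : Group H') (κ : H →* H') (t : H'), Function.Injective κ ∧
      (L.map (evalL (κ.comp ι) (Function.update (κ ∘ h) j t))).prod = 1 := by
  have hO : none ∈ L.map (toOpt ι h j) := by
    rw [List.mem_map]
    exact ⟨Letter.var j, h1, by simp [toOpt]⟩
  obtain ⟨H', _, κ, t, hκ, ht⟩ := levin_option _ hO
  refine ⟨H', inferInstance, κ, t, hκ, ?_⟩
  rw [List.map_map] at ht
  rw [← ht]
  congr 1
  apply List.map_congr_left
  intro l hl
  cases l with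
  | coef g => simp [evalL, toOpt, evalO]
  | var i =>
    by_cases hij : i = j
    · subst hij; simp [evalL, toOpt, evalO]
    · simp [evalL, toOpt, evalO, hij]
  | varInv i =>
    have hij : i ≠ j := by
      rintro rfl
      exact h2 hl
    simp [evalL, toOpt, evalO, Function.update_of_ne hij]

theorem eval_update {G H H' : Type u} [Group G] [Group H] [Group H'] {n : ℕ} (ι : G →* H)
    (h : Fin n → H) (κ : H →* H') (t : H') (j : Fin n)
    (L : List (Letter G n)) (h1 : Letter.var j ∉ L) (h2 : Letter.varInv j ∉ L) :
    (L.map (evalL (κ.comp ι) (Function.update (κ ∘ h) j t))).prod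
      = κ (L.map (evalL ι h)).prod := by
  rw [map_list_prod, List.map_map]
  congr 1
  apply List.map_congr_left
  intro l hl
  cases l with
  | coef g => simp [evalL]
  | var i =>
    have hij : i ≠ j := by
      rintro rfl
      exact h1 hl
    simp [evalL, Function.update_of_ne hij]
  | varInv i =>
    have hij : i ≠ j := by
      rintro rfl
      exact h2 hl
    simp [evalL, Function.update_of_ne hij]

theorem triangular_solvable {G : Type u} [Group G] {m n : ℕ} (W : Fin m → List (Letter G n))
    (σ : Fin m → Fin n)
    (hpos : ∀ i, Letter.var (σ i) ∈ W i ∧ Letter.varInv (σ i) ∉ W i)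
    (htri : ∀ i k, k < i → Letter.var (σ i) ∉ W k ∧ Letter.varInv (σ i) ∉ W k) :
    SolvableOver (fun i => wordVal (W i)) := by
  have key : ∀ r : ℕ, r ≤ m → ∃ (H : Type u) (_ : Group H) (ι : G →* H) (h : Fin n → H),
      Function.Injective ι ∧ ∀ i : Fin m, i.val < r → ((W i).map (evalL ι h)).prod = 1 := by
    intro r
    induction r with
    | zero =>
      intro _
      exact ⟨G, inferInstance, MonoidHom.id G, fun _ => 1, Function.injective_id,
        fun i hi => absurd hi (Nat.not_lt_zero _)⟩
    | succ r ih =>
      intro hr
      obtain ⟨H, _, ι, h, hι, hsol⟩ := ih (by omega)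
      let p : Fin m := ⟨r, by omega⟩
      obtain ⟨H', _, κ, t, hκ, ht⟩ := step ι h (σ p) (W p) (hpos p).1 (hpos p).2
      refine ⟨H', inferInstance, κ.comp ι, Function.update (κ ∘ h) (σ p) t,
        hκ.comp hι, ?_⟩
      intro i hi
      by_cases hir : i.val = r
      · have : i = p := Fin.ext hir
        rw [this]
        exact ht
      · have hlt : i < p := by
          rw [Fin.lt_def]
          simp only [p]
          omega
        rw [eval_update ι h κ t (σ p) (W i) (htri p i hlt).1 (htri p i hlt).2,
          hsol i (by omega), map_one]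
  obtain ⟨H, _, ι, h, hι, hsol⟩ := key m le_rfl
  refine ⟨H, inferInstance, ι, h, hι, fun i => ?_⟩
  rw [lift_wordVal]
  exact hsol i i.isLt

end Vale.Agent.Lib.P174
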